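import Crest.Agent.X37.PT.Mat

/-!
# The inverse of a rational matrix is polynomial time

Rows of the identity are replaced one at a time by the rows of `Mᵀ M` (rank-one updates); every
intermediate matrix is an inverse, so Cramer's rule bounds its size.
-/

set_option autoImplicit false

namespace Crest.Agent.X37.PT

open Crest.Agent.Lib.PT Matrix Finset

/-! ### heights of determinants and inverses -/

/-- exponent bounding the height of a determinant -/
def detExp (n b : ℕ) : ℕ := n * n + (b * (n * n) + b) * n + 1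

theorem ratH_det_le {ι : Type*} [Fintype ι] [DecidableEq ι] (A : Matrix ι ι ℚ) (b : ℕ)
    (hA : ∀ i j, ratH (A i j) ≤ 2 ^ b) : ratH A.det ≤ 2 ^ detExp (Fintype.card ι) b := by
  set n := Fintype.card ι with hn
  set D : ℕ := ∏ p : ι × ι, (A p.1 p.2).den with hD
  have hDpos : 0 < D := Finset.prod_pos fun p _ => (A p.1 p.2).den_pos
  have hDle : D ≤ 2 ^ (b * (n * n)) := by
    have : D ≤ ∏ _p : ι × ι, 2 ^ b := Finset.prod_le_prod' fun p _ => by
      have := hA p.1 p.2; unfold ratH at this; omega
    rwa [Finset.prod_const, Finset.card_univ, Fintype.card_prod, ← pow_mul] at this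
  have hdvd : ∀ i j, (A i j).den ∣ D := fun i j =>
    Finset.dvd_prod_of_mem (fun p : ι × ι => (A p.1 p.2).den) (Finset.mem_univ (i, j))
  let Z : Matrix ι ι ℤ := Matrix.of fun i j => (A i j).num * ((D / (A i j).den : ℕ) : ℤ)
  have hZ : Z.map (Int.cast : ℤ → ℚ) = (D : ℚ) • A := by
    ext i j
    have h0 : ((A i j).den : ℚ) ≠ 0 := by exact_mod_cast (A i j).den_nz
    simp only [Z, Matrix.map_apply, Matrix.of_apply, Matrix.smul_apply, smul_eq_mul,
      Int.cast_mul, Int.cast_natCast]
    rw [Nat.cast_div (hdvd i j) h0]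
    conv_rhs => rw [← Rat.num_div_den (A i j)]
    field_simp
  have hdet : (Z.det : ℚ) = (D : ℚ) ^ n * A.det := by
    have := (Int.castRingHom ℚ).map_det Z
    simp only [eq_intCast, RingHom.mapMatrix_apply] at this
    rw [this]
    have e : Z.map (Int.castRingHom ℚ) = (D : ℚ) • A := hZ
    rw [e, Matrix.det_smul]
  have hD0 : (D : ℚ) ≠ 0 := by exact_mod_cast hDpos.ne'
  have e : A.det = (Z.det : ℚ) / ((D ^ n : ℕ) : ℚ) := by
    rw [hdet]; push_cast; field_simp
  have hZle : ∀ i j, AbsoluteValue.abs (Z i j) ≤ ((2 ^ (b * (n * n) + b) : ℕ) : ℤ) := by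
    intro i j
    have h1 : (A i j).num.natAbs ≤ 2 ^ b := by have := hA i j; unfold ratH at this; omega
    have h2 : D / (A i j).den ≤ 2 ^ (b * (n * n)) := (Nat.div_le_self _ _).trans hDle
    have h3 : (Z i j).natAbs ≤ 2 ^ (b * (n * n) + b) := by
      simp only [Z, Matrix.of_apply, Int.natAbs_mul, Int.natAbs_natCast]
      rw [pow_add, mul_comm]; exact Nat.mul_le_mul h2 h1
    rw [AbsoluteValue.abs_apply, Int.abs_eq_natAbs]; exact_mod_cast h3
  have h4 := Matrix.det_le hZle
  rw [AbsoluteValue.abs_apply, Int.abs_eq_natAbs, nsmul_eq_mul, ← hn] at h4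
  have h5 : Z.det.natAbs ≤ n.factorial * (2 ^ (b * (n * n) + b)) ^ n := by exact_mod_cast h4
  have h6 : n.factorial ≤ 2 ^ (n * n) := by
    refine (Nat.factorial_le_pow n).trans ?_
    rw [pow_mul]; exact Nat.pow_le_pow_left Nat.lt_two_pow_self.le _
  have h7 : Z.det.natAbs ≤ 2 ^ (n * n + (b * (n * n) + b) * n) := by
    rw [pow_add, pow_mul 2 (b * (n * n) + b)]
    exact h5.trans (Nat.mul_le_mul_right _ h6)
  have h8 : D ^ n ≤ 2 ^ (n * n + (b * (n * n) + b) * n) := by
    refine (Nat.pow_le_pow_left hDle n).trans ?_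
    rw [← pow_mul]
    exact Nat.pow_le_pow_right (by omega) (by nlinarith [Nat.zero_le (n * n), Nat.zero_le (b * n)])
  rw [e]
  refine (ratH_div_le' _ (pow_pos hDpos n)).trans ?_
  rw [detExp, pow_succ]; omega

theorem ratH_inv_entry_le {ι : Type*} [Fintype ι] [DecidableEq ι] (A : Matrix ι ι ℚ) (b : ℕ)
    (hb : 1 ≤ b) (hA : ∀ i j, ratH (A i j) ≤ 2 ^ b) (i j : ι) :
    ratH (A⁻¹ i j) ≤ 2 ^ (2 * detExp (Fintype.card ι) b) := by
  have h2 : 2 ≤ 2 ^ b := by
    calc 2 = 2 ^ 1 := rfl
      _ ≤ 2 ^ b := Nat.pow_le_pow_right (by omega) hb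
  rw [Matrix.inv_def, Ring.inverse_eq_inv', Matrix.smul_apply, smul_eq_mul, Matrix.adjugate_apply]
  refine (ratH_mul_le _ _).trans ?_
  rw [two_mul, pow_add]
  refine Nat.mul_le_mul ((ratH_inv_le _).trans (ratH_det_le A b hA)) (ratH_det_le _ b ?_)
  intro k l
  rw [Matrix.updateRow_apply]
  split_ifs
  · rw [Pi.single_apply]; split_ifs
    · simpa using h2
    · simp only [ratH_zero]; omega
  · exact hA k l

/-- The size of an entry of the inverse. -/
theorem sz_inv_entry_le {ι : Type*} [Fintype ι] [DecidableEq ι] (A : Matrix ι ι ℚ) (b : ℕ)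
    (hA : ∀ i j, sz (A i j) ≤ b) (i j : ι) :
    sz (A⁻¹ i j) ≤ 8 * (2 * detExp (Fintype.card ι) (b + 1) + 1) + 7 := by
  refine sz_rat_le_of_lt ((ratH_inv_entry_le A (b + 1) (by omega) (fun k l => ?_) i j).trans_lt
    (Nat.pow_lt_pow_right (by omega) (by omega)))
  exact (ratH_lt_two_pow_sz _).le.trans
    (Nat.pow_le_pow_right (by omega) ((hA k l).trans (by omega)))

/-! ### the algorithm -/

/-- the first `k` rows of `A`, then rows of the identity -/
def rowA (A : ℕ → ℕ → ℚ) (k : ℕ) (i j : ℕ) : ℚ :=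
  if i < k then A i j else if i = j then 1 else 0

/-- the row vector `(A k - e k) B` -/
def wB (n : ℕ) (A : List (List ℚ)) (k : ℕ) (B : List (List ℚ)) (j : ℕ) : ℚ :=
  ∑ l ∈ range n, (ent A k l - if k = l then 1 else 0) * ent B l j

/-- one rank-one update -/
def invStep (n : ℕ) (A : List (List ℚ)) (k : ℕ) (s : Bool × List (List ℚ)) :
    Bool × List (List ℚ) :=
  if s.1 = true ∧ 1 + wB n A k s.2 k ≠ 0 then
    (true, tab n n fun i j => ent s.2 i j - ent s.2 i k * (wB n A k s.2 j / (1 + wB n A k s.2 k)))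
  else (false, [])

/-- the state after `k` updates -/
def invRun (n : ℕ) (A : List (List ℚ)) : ℕ → Bool × List (List ℚ)
  | 0 => (true, tab n n fun i j => if i = j then 1 else 0)
  | k + 1 => invStep n A k (invRun n A k)

theorem invRun_spec (n : ℕ) (A : List (List ℚ)) (k : ℕ) (hk : k ≤ n) :
    ((invRun n A k).1 = true ∧ matF n (rowA (ent A) k) * toMat n (invRun n A k).2 = 1 ∧
      ∃ f, (invRun n A k).2 = tab n n f) ∨
    ((invRun n A k) = (false, []) ∧
      ∃ j, ∃ x : Fin n → ℚ, x ≠ 0 ∧ matF n (rowA (ent A) j) *ᵥ x = 0) := by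
  induction k with
  | zero =>
    refine Or.inl ⟨rfl, ?_, _, rfl⟩
    have e1 : matF n (rowA (ent A) 0) = 1 := by
      ext i j; simp [rowA, Matrix.one_apply, Fin.ext_iff]
    have e2 : toMat n (invRun n A 0).2 = 1 := by
      ext i j; simp [invRun, Matrix.one_apply, Fin.ext_iff]
    rw [e1, e2, Matrix.one_mul]
  | succ k ih =>
    rcases ih (by omega) with ⟨h1, h2, -⟩ | ⟨h1, h2⟩
    · set B := (invRun n A k).2 with hB
      let k' : Fin n := ⟨k, hk⟩
      have hRB : ∀ i j : Fin n, ∑ l : Fin n, rowA (ent A) k i l * ent B l j =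
          if i = j then 1 else 0 := fun i j => by
        have := congrFun (congrFun h2 i) j
        simpa [Matrix.mul_apply, Matrix.one_apply] using this
      have hne : ∀ i : Fin n, i ≠ k' → ∀ l : ℕ, rowA (ent A) (k + 1) i l = rowA (ent A) k i l := by
        intro i hi l
        have : (i : ℕ) ≠ k := fun h => hi (Fin.ext h)
        unfold rowA
        by_cases h : (i : ℕ) < k
        · rw [if_pos h, if_pos (by omega)]
        · rw [if_neg h, if_neg (by omega)]
      have heq : ∀ j : Fin n, ∑ l : Fin n, rowA (ent A) (k + 1) k l * ent B l j =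
          (if k' = j then 1 else 0) + wB n A k B j := by
        intro j
        rw [← hRB k' j, wB, Finset.sum_range, ← Finset.sum_add_distrib]
        refine Finset.sum_congr rfl fun l _ => ?_
        simp only [rowA, k', Nat.lt_succ_self, if_true, lt_irrefl, if_false]
        ring
      by_cases hp : 1 + wB n A k B k = 0
      · refine Or.inr ⟨by rw [invRun, invStep, if_neg (by simp [← hB, hp])],
          k + 1, fun l => ent B l k, fun h0 => ?_, ?_⟩
        · have := hRB k' k'
          have h0' : ∀ l : Fin n, ent B l k = 0 := fun l => congrFun h0 l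
          simp [k', h0'] at this
        · ext i
          simp only [Matrix.mulVec, dotProduct, matF_apply, Pi.zero_apply]
          by_cases hi : i = k'
          · subst hi
            have := heq k'
            rw [if_pos rfl] at this
            exact this.trans hp
          · simp only [hne i hi]
            have := hRB i k'
            rwa [if_neg hi] at this
      · have e : invRun n A (k + 1) = (true, tab n n fun i j =>
            ent B i j - ent B i k * (wB n A k B j / (1 + wB n A k B k))) := by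
          rw [invRun, invStep, if_pos ⟨h1, hp⟩]
        refine Or.inl ⟨by rw [e], ?_, _, by rw [e]⟩
        rw [e]
        ext i j
        simp only [Matrix.mul_apply, matF_apply, toMat_apply, ent_tab_fin, Matrix.one_apply,
          mul_sub, ← mul_assoc, Finset.sum_sub_distrib, ← Finset.sum_mul]
        by_cases hi : i = k'
        · subst hi
          have h3 := heq j
          have h4 := heq k'
          rw [if_pos rfl] at h4
          simp only [k'] at h3 h4 ⊢
          rw [h3, h4]
          field_simp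
          ring
        · simp only [hne i hi]
          have h4 := hRB i k'
          rw [if_neg hi] at h4
          simp only [k'] at h4
          rw [hRB i j, h4]; simp
    · exact Or.inr ⟨by rw [invRun, h1, invStep, if_neg (by simp)], h2⟩

/-- the Gram matrix `Mᵀ M` -/
def gramL (n : ℕ) (M : List (List ℚ)) : List (List ℚ) :=
  tab n n fun i j => ∑ l ∈ range n, ent M l i * ent M l j

theorem toMat_gramL (n : ℕ) (M : List (List ℚ)) :
    toMat n (gramL n M) = (toMat n M)ᵀ * toMat n M := by
  ext i j; simp [gramL, Matrix.mul_apply, Finset.sum_range]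

theorem gram_rowA_inj {n : ℕ} {M : List (List ℚ)} (h : IsUnit (toMat n M).det) (j : ℕ)
    (x : Fin n → ℚ) (hx : matF n (rowA (ent (gramL n M)) j) *ᵥ x = 0) : x = 0 := by
  have h1 : ∀ i : Fin n, x i * ((toMat n (gramL n M)) *ᵥ x) i = 0 := by
    intro i
    have hi := congrFun hx i
    simp only [Matrix.mulVec, dotProduct, matF_apply, Pi.zero_apply, rowA] at hi
    by_cases hij : (i : ℕ) < j
    · simp only [hij, if_true] at hi
      simp only [Matrix.mulVec, dotProduct, toMat_apply, hi, mul_zero]
    · simp only [hij, if_false, Fin.val_inj, ite_mul, one_mul, zero_mul, Finset.sum_ite_eq,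
        Finset.mem_univ, if_true] at hi
      rw [hi, zero_mul]
  have h2 : x ⬝ᵥ ((toMat n (gramL n M)) *ᵥ x) = 0 := Finset.sum_eq_zero fun i _ => h1 i
  rw [toMat_gramL, ← Matrix.mulVec_mulVec, Matrix.dotProduct_mulVec, Matrix.vecMul_transpose,
    dotProduct_self_eq_zero] at h2
  exact Matrix.eq_zero_of_mulVec_eq_zero h.ne_zero h2

/-- the inverse as computed -/
def invAlg (n : ℕ) (M : List (List ℚ)) : List (List ℚ) :=
  tab n n fun i j => ∑ l ∈ range n, ent (invRun n (gramL n M) n).2 i l * ent M j l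

theorem invAlg_eq (n : ℕ) (M : List (List ℚ)) : invAlg n M = invL n M := by
  unfold invAlg invL
  refine tab_congr fun i hi j hj => ?_
  have e : invF n (ent M) i j = (toMat n M)⁻¹ ⟨i, hi⟩ ⟨j, hj⟩ := extM_of_lt _ hi hj
  rw [e]
  rcases invRun_spec n (gramL n M) n le_rfl with ⟨-, h2, -⟩ | ⟨h1, k, x, hx, h2⟩
  · have e1 : matF n (rowA (ent (gramL n M)) n) = (toMat n M)ᵀ * toMat n M := by
      rw [← toMat_gramL]; ext i j; simp [rowA]
    rw [e1] at h2
    have h3 := mul_eq_one_comm.1 h2
    rw [← Matrix.mul_assoc] at h3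
    rw [Matrix.inv_eq_left_inv h3]
    simp [Matrix.mul_apply, Finset.sum_range]
  · have : ¬ IsUnit (toMat n M).det := fun h => hx (gram_rowA_inj h k x h2)
    rw [Matrix.nonsing_inv_apply_not_isUnit _ this, h1]
    simp [ent]

theorem sz_invRun_le (n : ℕ) (A : List (List ℚ)) (k : ℕ) (hk : k ≤ n) :
    sz (invRun n A k) ≤
      n * (n * (8 * (2 * detExp n (sz A + 23 + 1) + 1) + 7 + 1) + 1 + 1) + 1 + 4 := by
  rcases invRun_spec n A k hk with ⟨-, h2, f, h3⟩ | ⟨h1, -⟩
  · have h4 : sz (tab n n f) ≤ _ := sz_tab_le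
      (B := 8 * (2 * detExp n (sz A + 23 + 1) + 1) + 7) fun i hi j hj => by
        have e : f i j = (matF n (rowA (ent A) k))⁻¹ ⟨i, hi⟩ ⟨j, hj⟩ := by
          rw [Matrix.inv_eq_right_inv h2, h3, toMat_tab]; rfl
        have := sz_inv_entry_le (matF n (rowA (ent A) k)) (sz A + 23) (fun i j => by
          simp only [matF_apply, rowA]
          split_ifs
          · have := sz_ent_le A i j; omega
          · have : sz (1 : ℚ) ≤ 8 * 2 + 7 := sz_rat_le_of_lt (by simp)
            omega
          · have := sz_rat_zero_le; omega) ⟨i, hi⟩ ⟨j, hj⟩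
        rw [Fintype.card_fin] at this
        rw [e]; exact this
    have h5 := sz_bool_le (invRun n A k).1
    rw [sz_prod, h3]; omega
  · have h5 := sz_bool_le false
    rw [h1, sz_mk, sz_nil]; omega

section pt

universe u
variable {α : Type u} [Enc α]

@[fun_prop] theorem detExp_pb {n b : α → ℕ} (hn : PB n) (hb : PB b) :
    PB fun a => detExp (n a) (b a) := by unfold detExp; fun_prop

@[fun_prop] theorem wB_pt {n k j : α → ℕ} {A B : α → List (List ℚ)} (hn : PT n) (hb : PB n)
    (hA : PT A) (hk : PT k) (hB : PT B) (hj : PT j) :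
    PT fun a => wB (n a) (A a) (k a) (B a) (j a) := by
  unfold wB; fun_prop

theorem invStep_pt {n k : α → ℕ} {A : α → List (List ℚ)} {s : α → Bool × List (List ℚ)}
    (hn : PT n) (hb : PB n) (hA : PT A) (hk : PT k) (hs : PT s) :
    PT fun a => invStep (n a) (A a) (k a) (s a) := by
  unfold invStep
  refine PT.ite (PT.and hs.fst.eq_true (PT.not (PT.eq (by fun_prop) (by fun_prop))))
    (PT.pair (PT.const _) (tab_pt hn hb hn hb (by fun_prop))) (PT.const _)

theorem invRun_pt {n : α → ℕ} {A : α → List (List ℚ)} (hn : PT n) (hb : PB n) (hA : PT A) :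
    PT fun a => invRun (n a) (A a) (n a) :=
  PT.nat_rec (F := fun a => invRun (n a) (A a)) (f := fun a k s => invStep (n a) (A a) k s)
    (z := fun a => (true, tab (n a) (n a) fun i j => if i = j then 1 else 0)) hn hb
    (PT.pair (PT.const _) (tab_pt hn hb hn hb (by fun_prop)))
    (invStep_pt (by fun_prop) (by fun_prop) (by fun_prop) (by fun_prop) (by fun_prop))
    (fun _ => rfl) (fun _ _ _ => rfl)
    (B := fun a => n a * (n a * (8 * (2 * detExp (n a) (sz (A a) + 23 + 1) + 1) + 7 + 1) + 1 + 1)
      + 1 + 4) (by fun_prop) fun a k hk => sz_invRun_le _ _ k hk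

@[fun_prop] theorem gramL_pt {n : α → ℕ} {M : α → List (List ℚ)} (hn : PT n) (hb : PB n)
    (hM : PT M) : PT fun a => gramL (n a) (M a) := by
  unfold gramL
  exact tab_pt hn hb hn hb (by fun_prop)

/-- The inverse of a table is polynomial time. -/
@[fun_prop] theorem invL_pt {n : α → ℕ} {M : α → List (List ℚ)} (hn : PT n) (hb : PB n)
    (hM : PT M) : PT fun a => invL (n a) (M a) := by
  have h1 := (invRun_pt hn hb (gramL_pt hn hb hM)).snd
  refine PT.of_eq (g := fun a => invAlg (n a) (M a)) ?_ fun a => invAlg_eq _ _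
  unfold invAlg
  generalize hR : (fun a => (invRun (n a) (gramL (n a) (M a)) (n a)).2) = R at h1
  have : ∀ a, (invRun (n a) (gramL (n a) (M a)) (n a)).2 = R a := fun a => congrFun hR a
  simp only [this]
  exact tab_pt hn hb hn hb (by fun_prop)

/-- The entries of the inverse of an index function are polynomial time. -/
@[fun_prop] theorem invF_pt {n i j : α → ℕ} {f : α → ℕ → ℕ → ℚ} (hn : PT n) (hb : PB n)
    (hf : PT fun p : α × ℕ × ℕ => f p.1 p.2.1 p.2.2) (hi : PT i) (hj : PT j) :
    PT fun a => invF (n a) (f a) (i a) (j a) :=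
  (ent_pt (invL_pt hn hb (tab_pt hn hb hn hb hf)) hi hj).of_eq fun _ => ent_invL_tab _ _ _ _

end pt


end Crest.Agent.X37.PT
private theorem rz_a8036f6295 : type_of% @_root_.Crest.Agent.X37.PT.invRun.eq_def := @_root_.Crest.Agent.X37.PT.invRun.eq_def -- L120
private theorem rz_eddbe5f508 : type_of% @_root_.Crest.Agent.X37.PT.invRun.eq_1 := @_root_.Crest.Agent.X37.PT.invRun.eq_1 -- L120
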