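import Crest.Agent.PVb.Lib.PT.All

/-!
# Rational vectors and matrices in polynomial time: tables, index functions, Mathlib matrices

A matrix is either a table `List (List ℚ)` (read by `ent`) or an index function `ℕ → ℕ → ℚ`
(tabulated by `tab`).  `matF n f` / `toMat n M` are the Mathlib matrices over `ℚ`, `matR n f` the
one over `ℝ`.  `invF n f` is *defined* as the Mathlib inverse (`0` outside the range and for
singular matrices); `X37/PT/Inv.lean` shows that it is polynomial time.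
-/

set_option autoImplicit false

namespace Crest.Agent.X37.PT

open Crest.Agent.Lib.PT Matrix

/-- entry of a vector, `0` outside -/
def vent (x : List ℚ) (i : ℕ) : ℚ := x.getD i 0

/-- entry of a table, `0` outside -/
def ent (M : List (List ℚ)) (i j : ℕ) : ℚ := (M.getD i []).getD j 0

/-- tabulate a vector -/
def vtab (n : ℕ) (f : ℕ → ℚ) : List ℚ := (List.range n).map f

/-- tabulate an `n × m` matrix -/
def tab (n m : ℕ) (f : ℕ → ℕ → ℚ) : List (List ℚ) :=
  (List.range n).map fun i => (List.range m).map fun j => f i j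

/-- the Mathlib matrix of an index function -/
def matF (n : ℕ) (f : ℕ → ℕ → ℚ) : Matrix (Fin n) (Fin n) ℚ := Matrix.of fun i j => f i j

/-- the real matrix of an index function -/
def matR (n : ℕ) (f : ℕ → ℕ → ℚ) : Matrix (Fin n) (Fin n) ℝ :=
  Matrix.of fun i j => ((f i j : ℚ) : ℝ)

/-- the Mathlib matrix of a table -/
def toMat (n : ℕ) (M : List (List ℚ)) : Matrix (Fin n) (Fin n) ℚ := matF n (ent M)

/-- the index function of a Mathlib matrix, `0` outside the range -/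
def extM {n : ℕ} (A : Matrix (Fin n) (Fin n) ℚ) (i j : ℕ) : ℚ :=
  if h : i < n ∧ j < n then A ⟨i, h.1⟩ ⟨j, h.2⟩ else 0

/-- the inverse of the leading `n × n` block of an index function (Mathlib's inverse) -/
noncomputable def invF (n : ℕ) (f : ℕ → ℕ → ℚ) : ℕ → ℕ → ℚ := extM (matF n f)⁻¹

/-- the inverse of a table -/
noncomputable def invL (n : ℕ) (M : List (List ℚ)) : List (List ℚ) := tab n n (invF n (ent M))

/-- rounding down to the grid `(1/Q) ℤ` -/
def gridFloor (Q : ℕ) (q : ℚ) : ℚ := (⌊q * Q⌋ : ℤ) / (Q : ℚ)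

/-! ### reading and writing -/

@[simp] theorem length_vtab (n : ℕ) (f : ℕ → ℚ) : (vtab n f).length = n := by simp [vtab]

@[simp] theorem length_tab (n m : ℕ) (f : ℕ → ℕ → ℚ) : (tab n m f).length = n := by simp [tab]

theorem vent_vtab (n : ℕ) (f : ℕ → ℚ) (i : ℕ) : vent (vtab n f) i = if i < n then f i else 0 := by
  unfold vent vtab
  split_ifs with h
  · simp [List.getD_eq_getElem?_getD, h]
  · simp [List.getD_eq_getElem?_getD, h]

theorem vent_vtab_of_lt {n i : ℕ} (f : ℕ → ℚ) (h : i < n) : vent (vtab n f) i = f i := by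
  rw [vent_vtab, if_pos h]

@[simp] theorem vent_vtab_fin {n : ℕ} (f : ℕ → ℚ) (i : Fin n) : vent (vtab n f) i = f i :=
  vent_vtab_of_lt f i.2

theorem ent_tab (n m : ℕ) (f : ℕ → ℕ → ℚ) (i j : ℕ) :
    ent (tab n m f) i j = if i < n ∧ j < m then f i j else 0 := by
  unfold ent tab
  by_cases hi : i < n
  · by_cases hj : j < m
    · simp [List.getD_eq_getElem?_getD, hi, hj]
    · simp [List.getD_eq_getElem?_getD, hi, hj]
  · simp [List.getD_eq_getElem?_getD, hi]

theorem ent_tab_of_lt {n m i j : ℕ} (f : ℕ → ℕ → ℚ) (hi : i < n) (hj : j < m) :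
    ent (tab n m f) i j = f i j := by rw [ent_tab, if_pos ⟨hi, hj⟩]

@[simp] theorem ent_tab_fin {n m : ℕ} (f : ℕ → ℕ → ℚ) (i : Fin n) (j : Fin m) :
    ent (tab n m f) i j = f i j := ent_tab_of_lt f i.2 j.2


theorem tab_congr {n m : ℕ} {f g : ℕ → ℕ → ℚ} (h : ∀ i < n, ∀ j < m, f i j = g i j) :
    tab n m f = tab n m g :=
  List.map_congr_left fun i hi => List.map_congr_left fun j hj =>
    h i (List.mem_range.1 hi) j (List.mem_range.1 hj)

@[simp] theorem matF_apply (n : ℕ) (f : ℕ → ℕ → ℚ) (i j : Fin n) : matF n f i j = f i j := rfl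

@[simp] theorem matR_apply (n : ℕ) (f : ℕ → ℕ → ℚ) (i j : Fin n) :
    matR n f i j = ((f i j : ℚ) : ℝ) := rfl

@[simp] theorem toMat_apply (n : ℕ) (M : List (List ℚ)) (i j : Fin n) :
    toMat n M i j = ent M i j := rfl

theorem matR_eq_map (n : ℕ) (f : ℕ → ℕ → ℚ) :
    matR n f = (matF n f).map (Rat.cast : ℚ → ℝ) := rfl



@[simp] theorem extM_fin {n : ℕ} (A : Matrix (Fin n) (Fin n) ℚ) (i j : Fin n) :
    extM A i j = A i j := by simp [extM]

theorem extM_of_lt {n i j : ℕ} (A : Matrix (Fin n) (Fin n) ℚ) (hi : i < n) (hj : j < n) :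
    extM A i j = A ⟨i, hi⟩ ⟨j, hj⟩ := by simp [extM, hi, hj]

theorem extM_of_not {n i j : ℕ} (A : Matrix (Fin n) (Fin n) ℚ) (h : ¬ (i < n ∧ j < n)) :
    extM A i j = 0 := by simp only [extM, dif_neg h]

@[simp] theorem matF_extM {n : ℕ} (A : Matrix (Fin n) (Fin n) ℚ) : matF n (extM A) = A := by
  ext i j; simp

@[simp] theorem toMat_tab (n : ℕ) (f : ℕ → ℕ → ℚ) : toMat n (tab n n f) = matF n f := by
  ext i j; simp

@[simp] theorem matF_ent_tab (n : ℕ) (f : ℕ → ℕ → ℚ) : matF n (ent (tab n n f)) = matF n f :=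
  toMat_tab n f

/-! ### the inverse -/

@[simp] theorem matF_invF (n : ℕ) (f : ℕ → ℕ → ℚ) : matF n (invF n f) = (matF n f)⁻¹ :=
  matF_extM _

@[simp] theorem invF_fin {n : ℕ} (f : ℕ → ℕ → ℚ) (i j : Fin n) :
    invF n f i j = (matF n f)⁻¹ i j := extM_fin _ i j


@[simp] theorem toMat_invL (n : ℕ) (M : List (List ℚ)) : toMat n (invL n M) = (toMat n M)⁻¹ := by
  unfold invL; rw [toMat_tab, matF_invF]; rfl

theorem ent_invL (n : ℕ) (M : List (List ℚ)) (i j : ℕ) :
    ent (invL n M) i j = invF n (ent M) i j := by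
  unfold invL
  rw [ent_tab]
  split_ifs with h
  · rfl
  · exact (extM_of_not _ h).symm

theorem ent_invL_tab (n : ℕ) (f : ℕ → ℕ → ℚ) (i j : ℕ) :
    ent (invL n (tab n n f)) i j = invF n f i j := by
  rw [ent_invL]; unfold invF; rw [matF_ent_tab]

/-- The cast `ℚ → ℝ` commutes with the inverse, on any index type. -/
theorem map_cast_inv {ι : Type*} [Fintype ι] [DecidableEq ι] (A : Matrix ι ι ℚ) :
    (A⁻¹).map (Rat.cast : ℚ → ℝ) = (A.map (Rat.cast : ℚ → ℝ))⁻¹ := by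
  have h1 : (A.map (Rat.cast : ℚ → ℝ)).det = (A.det : ℝ) :=
    ((Rat.castHom ℝ).map_det A).symm
  have h2 : (A.map (Rat.cast : ℚ → ℝ)).adjugate = A.adjugate.map (Rat.cast : ℚ → ℝ) :=
    ((Rat.castHom ℝ).map_adjugate A).symm
  ext i j
  rw [Matrix.inv_def, Matrix.inv_def, h1, h2]
  simp

@[simp] theorem matR_invF (n : ℕ) (f : ℕ → ℕ → ℚ) : matR n (invF n f) = (matR n f)⁻¹ := by
  rw [matR_eq_map, matF_invF, map_cast_inv, matR_eq_map]

/-- The real inverse has the entries `invF`. -/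
theorem cast_invF {n : ℕ} (f : ℕ → ℕ → ℚ) (i j : Fin n) :
    ((invF n f i j : ℚ) : ℝ) = (matR n f)⁻¹ i j := by rw [← matR_invF]; rfl

/-- The same for a real matrix on any index type enumerated by `Fin n`. -/
theorem cast_invF_equiv {ι : Type*} [Fintype ι] [DecidableEq ι] {n : ℕ} (e : ι ≃ Fin n)
    (f : ℕ → ℕ → ℚ) (A : Matrix ι ι ℝ) (h : ∀ i j, A i j = ((f (e i) (e j) : ℚ) : ℝ)) (i j : ι) :
    ((invF n f (e i) (e j) : ℚ) : ℝ) = A⁻¹ i j := by
  have : A = (matR n f).submatrix e e := by ext i j; simp [h]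
  rw [this, Matrix.inv_submatrix_equiv, cast_invF]; rfl

/-- If a real matrix has rational entries `f`, its inverse has the entries `invF`. -/
theorem cast_invF_of_eq {n : ℕ} (f : ℕ → ℕ → ℚ) (A : Matrix (Fin n) (Fin n) ℝ)
    (h : ∀ i j : Fin n, A i j = ((f i j : ℚ) : ℝ)) (i j : Fin n) :
    ((invF n f i j : ℚ) : ℝ) = A⁻¹ i j := cast_invF_equiv (Equiv.refl _) f A h i j


/-! ### grid rounding -/

theorem gridFloor_le {Q : ℕ} (hQ : 0 < Q) (q : ℚ) : gridFloor Q q ≤ q := by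
  have : (0 : ℚ) < Q := by exact_mod_cast hQ
  unfold gridFloor
  rw [div_le_iff₀ this]; exact Int.floor_le _

theorem lt_gridFloor_add {Q : ℕ} (hQ : 0 < Q) (q : ℚ) : q < gridFloor Q q + 1 / Q := by
  have : (0 : ℚ) < Q := by exact_mod_cast hQ
  unfold gridFloor
  rw [← add_div, lt_div_iff₀ this]; exact Int.lt_floor_add_one _

theorem abs_gridFloor_sub_le {Q : ℕ} (hQ : 0 < Q) (q : ℚ) : |gridFloor Q q - q| ≤ 1 / Q := by
  have h1 := gridFloor_le hQ q
  have h2 := lt_gridFloor_add hQ q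
  have : (0 : ℚ) < 1 / Q := by positivity
  rw [abs_le]; constructor <;> linarith

/-- `q` lies on the grid `(1/Q) ℤ`. -/
def OnGrid (Q : ℕ) (q : ℚ) : Prop := ∃ z : ℤ, q = z / (Q : ℚ)

theorem onGrid_gridFloor (Q : ℕ) (q : ℚ) : OnGrid Q (gridFloor Q q) := ⟨_, rfl⟩

theorem OnGrid.add {Q : ℕ} {q r : ℚ} (hq : OnGrid Q q) (hr : OnGrid Q r) : OnGrid Q (q + r) := by
  obtain ⟨z, rfl⟩ := hq
  obtain ⟨w, rfl⟩ := hr
  exact ⟨z + w, by push_cast; ring⟩

theorem OnGrid.neg {Q : ℕ} {q : ℚ} (hq : OnGrid Q q) : OnGrid Q (-q) := by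
  obtain ⟨z, rfl⟩ := hq
  exact ⟨-z, by push_cast; ring⟩

theorem OnGrid.sub {Q : ℕ} {q r : ℚ} (hq : OnGrid Q q) (hr : OnGrid Q r) : OnGrid Q (q - r) := by
  rw [sub_eq_add_neg]; exact hq.add hr.neg

theorem onGrid_zero (Q : ℕ) : OnGrid Q 0 := ⟨0, by simp⟩

theorem onGrid_intCast {Q : ℕ} (hQ : 0 < Q) (z : ℤ) : OnGrid Q z := by
  have : (Q : ℚ) ≠ 0 := by exact_mod_cast hQ.ne'
  exact ⟨z * Q, by push_cast; field_simp⟩

theorem onGrid_one {Q : ℕ} (hQ : 0 < Q) : OnGrid Q 1 := by simpa using onGrid_intCast hQ 1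

theorem ratH_div_le' (z : ℤ) {D : ℕ} (hD : 0 < D) : ratH ((z : ℚ) / D) ≤ z.natAbs + D := by
  have : (z : ℚ) / D = mkRat z D := by rw [Rat.mkRat_eq_div]
  rw [this]; exact ratH_mkRat_le z hD.ne'

/-- The height of a bounded grid point. -/
theorem OnGrid.ratH_le {Q B : ℕ} (hQ : 0 < Q) {q : ℚ} (hq : OnGrid Q q) (hB : |q| ≤ B) :
    ratH q ≤ (B + 1) * Q := by
  obtain ⟨z, rfl⟩ := hq
  have hQ' : (0 : ℚ) < Q := by exact_mod_cast hQ
  rw [abs_div, abs_of_pos hQ', div_le_iff₀ hQ'] at hB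
  have h1 : z.natAbs ≤ B * Q := by
    have : ((z.natAbs : ℕ) : ℚ) ≤ ((B * Q : ℕ) : ℚ) := by
      rw [Nat.cast_natAbs]; push_cast; exact hB
    exact_mod_cast this
  have := ratH_div_le' z hQ
  rw [Nat.succ_mul]; omega

/-- The size of a bounded grid point. -/
theorem OnGrid.sz_le {Q B : ℕ} (hQ : 0 < Q) {q : ℚ} (hq : OnGrid Q q) (hB : |q| ≤ B) :
    sz q ≤ 8 * (sz B + sz Q + 1) + 7 := by
  refine sz_rat_le_of_lt ((hq.ratH_le hQ hB).trans_lt ?_)
  have h1 := lt_two_pow_sz B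
  have h2 := lt_two_pow_sz Q
  calc (B + 1) * Q < 2 ^ sz B * 2 ^ sz Q + 1 := by
        have : (B + 1) * Q ≤ 2 ^ sz B * 2 ^ sz Q := Nat.mul_le_mul h1 h2.le
        omega
    _ ≤ 2 ^ (sz B + sz Q + 1) := by
        rw [pow_succ, pow_add]
        have : 0 < 2 ^ sz B * 2 ^ sz Q := by positivity
        omega

/-! ### sizes -/

theorem sz_vtab_le {n B : ℕ} {f : ℕ → ℚ} (h : ∀ i < n, sz (f i) ≤ B) :
    sz (vtab n f) ≤ n * (B + 1) + 1 := by
  have := sz_list_le (l := vtab n f) (B := B) fun a ha => by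
    obtain ⟨i, hi, rfl⟩ := List.mem_map.1 ha
    exact h i (List.mem_range.1 hi)
  simpa using this

theorem sz_tab_le {n m B : ℕ} {f : ℕ → ℕ → ℚ} (h : ∀ i < n, ∀ j < m, sz (f i j) ≤ B) :
    sz (tab n m f) ≤ n * (m * (B + 1) + 1 + 1) + 1 := by
  have := sz_list_le (l := tab n m f) (B := m * (B + 1) + 1) fun a ha => by
    obtain ⟨i, hi, rfl⟩ := List.mem_map.1 ha
    exact sz_vtab_le (f := f i) fun j hj => h i (List.mem_range.1 hi) j hj
  simpa using this

theorem sz_getD_le {β : Type*} [Enc β] (l : List β) (i : ℕ) (d : β) :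
    sz (l.getD i d) ≤ sz l + sz d := by
  rw [List.getD_eq_getElem?_getD]
  cases h : l[i]? with
  | none => simp
  | some b =>
    have := sz_le_of_mem (List.mem_of_getElem? h)
    simp only [Option.getD_some]; omega

theorem sz_rat_zero_le : sz (0 : ℚ) ≤ 15 :=
  sz_rat_le_of_lt (k := 1) (by simp)


theorem sz_ent_le (M : List (List ℚ)) (i j : ℕ) : sz (ent M i j) ≤ sz M + 16 := by
  have h1 := sz_getD_le (M.getD i []) j 0
  have h2 := sz_getD_le M i []
  have := sz_rat_zero_le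
  simp only [sz_nil] at h2
  unfold ent; omega

/-! ### polynomial time -/

section pt

universe u
variable {α : Type u} [Enc α]

@[fun_prop] theorem vent_pt {x : α → List ℚ} {i : α → ℕ} (hx : PT x) (hi : PT i) :
    PT fun a => vent (x a) (i a) := by unfold vent; fun_prop

@[fun_prop] theorem ent_pt {M : α → List (List ℚ)} {i j : α → ℕ} (hM : PT M) (hi : PT i)
    (hj : PT j) : PT fun a => ent (M a) (i a) (j a) := by unfold ent; fun_prop

@[fun_prop] theorem vtab_pt {n : α → ℕ} {f : α → ℕ → ℚ} (hn : PT n) (hb : PB n)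
    (hf : PT fun p : α × ℕ => f p.1 p.2) : PT fun a => vtab (n a) (f a) :=
  PT.map (hn.range hb) hf


@[fun_prop] theorem tab_pt {n m : α → ℕ} {f : α → ℕ → ℕ → ℚ} (hn : PT n) (hb : PB n)
    (hm : PT m) (hb' : PB m) (hf : PT fun p : α × ℕ × ℕ => f p.1 p.2.1 p.2.2) :
    PT fun a => tab (n a) (m a) (f a) := by
  unfold tab
  refine PT.map (hn.range hb) (PT.map (l := fun p : α × ℕ => List.range (m p.1))
    (f := fun p j => f p.1 p.2 j) (by fun_prop) ?_)
  exact hf.comp_eq (fun q : (α × ℕ) × ℕ => (q.1.1, q.1.2, q.2)) (by fun_prop)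

@[fun_prop] theorem gridFloor_pt {Q : α → ℕ} {q : α → ℚ} (hQ : PT Q) (hq : PT q) :
    PT fun a => gridFloor (Q a) (q a) := by unfold gridFloor; fun_prop

end pt

end Crest.Agent.X37.PT
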